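import Vale.Agent.P073.LOC.Sec2
import Vale.Agent.P073.LOC560.Out
import Vale.Agent.P073.AB.Sum293f

/-!
# P073, block LOC, rank two: sums of energies over a middle plane. Columns.
-/

namespace Vale.Agent.P073.LOC724

open MeasureTheory Set Filter Topology Metric Vale.Agent.P073.St
open Vale.Agent.P073.SQ (ev cube Cells dE faceE edgesE)
open Vale.Agent.P073.AB (cl Idx pt edge eInt squ tiles EdgeOf EdgeOfSq RatGood MinSq sqE mem_sqE)
open Vale.Agent.P073.AB.P86 (sc)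
open P073.Net (IsTile dyc dyo SizeFn)
open P073.Plate (pbox prel)
open Vale.Agent.P073.LOC
open scoped ContDiff ENNReal

/-- the part of the core over the set `S` of the plane of height `h` -/
def col (v : V) (n : ℕ) (h : ℝ) (S : Set V) : Set V :=
  {x | x ∈ core v n ∧ Function.update x 2 h ∈ S}

theorem col_mono {v : V} {n : ℕ} {h : ℝ} {S T : Set V} (hST : S ⊆ T) : col v n h S ⊆ col v n h T :=
  fun _ hx => ⟨hx.1, hST hx.2⟩

theorem measurable_updh (h : ℝ) : Measurable fun x : V => Function.update x (2 : Fin 3) h :=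
  SQ.measurable_upd 2 h

theorem measurableSet_col (v : V) (n : ℕ) (h : ℝ) {S : Set V} (hS : MeasurableSet S) :
    MeasurableSet (col v n h S) :=
  (LOC560.measurableSet_core v n).inter (measurable_updh h hS)

theorem isClosed_squ (v : V) (s : Idx × Fin 3) : IsClosed (squ v s) := by
  have : squ v s = {x : V | x s.2 = v s.2 + s.1.2 s.2 / 2 ^ s.1.1} ∩ ⋂ k, ⋂ (_ : k ≠ s.2),
      ({x : V | v k + s.1.2 k / 2 ^ s.1.1 ≤ x k} ∩
        {x : V | x k ≤ v k + (s.1.2 k + 1) / 2 ^ s.1.1}) := by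
    ext x; simp [squ]
  rw [this]
  refine (isClosed_eq (continuous_apply _) continuous_const).inter ?_
  exact isClosed_iInter fun l => isClosed_iInter fun _ =>
    (isClosed_le continuous_const (continuous_apply l)).inter
      (isClosed_le (continuous_apply l) continuous_const)

theorem isClosed_pbox (v : V) (s : Idx × Fin 3) (δ τ : ℝ) : IsClosed (pbox v s δ τ) := by
  have : pbox v s δ τ = {x : V | |x s.2 - (v s.2 + s.1.2 s.2 / 2 ^ s.1.1)| ≤ τ} ∩
      ⋂ k, ⋂ (_ : k ≠ s.2), ({x : V | v k + s.1.2 k / 2 ^ s.1.1 + δ ≤ x k} ∩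
        {x : V | x k ≤ v k + (s.1.2 k + 1) / 2 ^ s.1.1 - δ}) := by
    ext x; simp [pbox]
  rw [this]
  refine (isClosed_le ((continuous_apply _).sub continuous_const).abs continuous_const).inter ?_
  exact isClosed_iInter fun l => isClosed_iInter fun _ =>
    (isClosed_le continuous_const (continuous_apply l)).inter
      (isClosed_le (continuous_apply l) continuous_const)

/-- the corners of a square in the core -/
theorem squ_sub_core {v : V} {n : ℕ} {q : Idx} (hq : squ v (q, 2) ⊆ core v n) (l : Fin 3)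
    (hl : l ≠ 2) : v l + 2 / 2 ^ n ≤ v l + q.2 l / 2 ^ q.1 ∧
      v l + (q.2 l + 1) / 2 ^ q.1 ≤ v l + (2 ^ n - 3) / 2 ^ n := by
  have hp : (0:ℝ) < 1 / 2 ^ q.1 := by positivity
  have hlt : ∀ k, v k + (q.2 k : ℝ) / 2 ^ q.1 ≤ v k + (q.2 k + 1) / 2 ^ q.1 := fun k => by
    rw [add_div]; linarith
  have h1 : pt v q.1 q.2 ∈ squ v (q, 2) := ⟨rfl, fun k _ => ⟨le_rfl, hlt k⟩⟩
  have h2 : (fun k => if k = 2 then pt v q.1 q.2 k else v k + (q.2 k + 1) / 2 ^ q.1) ∈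
      squ v (q, 2) := by
    refine ⟨by simp [pt], fun k hk => ?_⟩
    have hk' : k ≠ 2 := hk
    simp only [hk', if_false]
    exact ⟨hlt k, le_rfl⟩
  have h3 := (hq h1 l).1
  have h4 := (hq h2 l).2
  simp only [hl, if_false] at h4
  exact ⟨h3, h4⟩

theorem core_cube (v : V) (n : ℕ) : core v n =
    cube (fun i => v i + (2 ^ n - 1) / 2 / 2 ^ n) ((2 ^ n - 5) / 2 / 2 ^ n) := by
  ext x
  refine forall_congr' fun i => ?_
  rw [abs_le]
  have hn : (0:ℝ) < 2 ^ n := by positivity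
  have e1 : (v i + ((2:ℝ) ^ n - 1) / 2 / 2 ^ n) - (2 ^ n - 5) / 2 / 2 ^ n = v i + 2 / 2 ^ n := by
    field_simp; ring
  have e2 : (v i + ((2:ℝ) ^ n - 1) / 2 / 2 ^ n) + (2 ^ n - 5) / 2 / 2 ^ n =
      v i + (2 ^ n - 3) / 2 ^ n := by
    field_simp; ring
  constructor
  · rintro ⟨h1, h2⟩
    constructor <;> linarith
  · rintro ⟨h1, h2⟩
    constructor <;> linarith

/-- **columns** -/
theorem lint_col {v : V} {n : ℕ} (hn : 3 ≤ n) {q : Idx} (hq : squ v (q, 2) ⊆ core v n) {h : ℝ}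
    (hh : pt v q.1 q.2 2 = h) {H : V → ℝ≥0∞} (hH : Measurable H) :
    ∫⁻ x in col v n h (squ v (q, 2)), H (Function.update x 2 h) ≤
      ENNReal.ofReal (2 ^ q.1) *
        ∫⁻ x in cube (sc v (q, 2)) (1 / 2 / 2 ^ q.1), H (Function.update x 2 h) := by
  have h8 := LOC560.eight_le hn
  have hp : (0:ℝ) < 2 ^ q.1 := by positivity
  have hpn : (0:ℝ) < 2 ^ n := by positivity
  have hρ : (0:ℝ) < (2 ^ n - 5) / 2 / 2 ^ n := by
    apply div_pos _ hpn; linarith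
  have hσ : (0:ℝ) < 1 / 2 / 2 ^ q.1 := by positivity
  have hl : ∀ l, l ≠ (2 : Fin 3) → |sc v (q, 2) l - (v l + (2 ^ n - 1) / 2 / 2 ^ n)| +
      1 / 2 / 2 ^ q.1 ≤ (2 ^ n - 5) / 2 / 2 ^ n := by
    intro l hl
    obtain ⟨h1, h2⟩ := squ_sub_core hq l hl
    have e0 : sc v (q, 2) l = v l + (q.2 l + 1 / 2) / 2 ^ q.1 := by simp [sc, hl]
    have e1 : (v l + ((2:ℝ) ^ n - 1) / 2 / 2 ^ n) - (2 ^ n - 5) / 2 / 2 ^ n = v l + 2 / 2 ^ n := by
      field_simp; ring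
    have e2 : (v l + ((2:ℝ) ^ n - 1) / 2 / 2 ^ n) + (2 ^ n - 5) / 2 / 2 ^ n =
        v l + (2 ^ n - 3) / 2 ^ n := by
      field_simp; ring
    have e3 : v l + ((q.2 l : ℝ) + 1 / 2) / 2 ^ q.1 - 1 / 2 / 2 ^ q.1 = v l + q.2 l / 2 ^ q.1 := by
      ring
    have e4 : v l + ((q.2 l : ℝ) + 1 / 2) / 2 ^ q.1 + 1 / 2 / 2 ^ q.1 =
        v l + (q.2 l + 1) / 2 ^ q.1 := by
      ring
    rw [e0, ← le_sub_iff_add_le, abs_le]
    constructor <;> linarith
  have key := SQ.specLayer (fun i => v i + (2 ^ n - 1) / 2 / 2 ^ n) (sc v (q, 2)) _ _ 2 h H hρ hσ hH hl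
  have hsub : col v n h (squ v (q, 2)) ⊆
      cube (fun i => v i + (2 ^ n - 1) / 2 / 2 ^ n) ((2 ^ n - 5) / 2 / 2 ^ n) ∩
        {x | ∀ l, l ≠ (2 : Fin 3) → |x l - sc v (q, 2) l| ≤ 1 / 2 / 2 ^ q.1} := by
    rintro x ⟨hx, hx'⟩
    refine ⟨by rw [← core_cube]; exact hx, fun l hl => ?_⟩
    have h1 := hx'.2 l hl
    rw [Function.update_of_ne hl] at h1
    have e0 : sc v (q, 2) l = v l + (q.2 l + 1 / 2) / 2 ^ q.1 := by simp [sc, hl]
    have e3 : v l + ((q.2 l : ℝ) + 1 / 2) / 2 ^ q.1 - 1 / 2 / 2 ^ q.1 = v l + q.2 l / 2 ^ q.1 := by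
      ring
    have e4 : v l + ((q.2 l : ℝ) + 1 / 2) / 2 ^ q.1 + 1 / 2 / 2 ^ q.1 =
        v l + (q.2 l + 1) / 2 ^ q.1 := by
      ring
    obtain ⟨h2, h3⟩ := h1
    rw [e0, abs_le]
    constructor <;> linarith
  refine (lintegral_mono_set hsub).trans ?_
  rw [key]
  gcongr
  rw [div_le_iff₀ hσ]
  have e5 : (2:ℝ) ^ q.1 * (1 / 2 / 2 ^ q.1) = 1 / 2 := by field_simp
  rw [e5, div_div, div_le_iff₀ (by positivity)]
  linarith

theorem sc_two (v : V) (q : Idx) : sc v (q, 2) 2 = pt v q.1 q.2 2 := by simp [sc, pt]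

/-- the energy over a square -/
theorem face_col {v : V} {n : ℕ} (hn : 3 ≤ n) {q : Idx} (hq : squ v (q, 2) ⊆ core v n) {h : ℝ}
    (hh : pt v q.1 q.2 2 = h) (p : ℝ) (G : V → V) :
    ∑ j ∈ Finset.univ.erase (2 : Fin 3),
      ∫⁻ x in col v n h (squ v (q, 2)), dE p G j (Function.update x 2 h) ≤
      ENNReal.ofReal (2 ^ q.1) * faceE p G (sc v (q, 2)) 2 (1 / 2 / 2 ^ q.1) := by
  unfold faceE
  rw [Finset.mul_sum]
  refine Finset.sum_le_sum fun j _ => ?_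
  have := lint_col hn hq hh (H := dE p G j) (AB.S293.measurable_dE p G j)
  rw [sc_two, hh]
  exact this

/-- the volume over a square -/
theorem vol_col {v : V} {n : ℕ} (hn : 3 ≤ n) {q : Idx} (hq : squ v (q, 2) ⊆ core v n) {h : ℝ}
    (hh : pt v q.1 q.2 2 = h) :
    volume (col v n h (squ v (q, 2))) ≤ ENNReal.ofReal (1 / 4 ^ q.1) := by
  have h1 := lint_col hn hq hh (H := fun _ => 1) measurable_const
  rw [setLIntegral_one, setLIntegral_one, SQ.cube_eq _ (by positivity),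
    Real.volume_pi_closedBall _ (by positivity)] at h1
  refine h1.trans (le_of_eq ?_)
  rw [← ENNReal.ofReal_mul (by positivity)]
  congr 1
  rw [Fintype.card_fin]
  have : (4:ℝ) ^ q.1 = 2 ^ q.1 * 2 ^ q.1 := by rw [← mul_pow]; norm_num
  rw [this]
  field_simp

/-- generic points -/
theorem ae_gen (v : V) : ∀ᵐ x : V, ∀ (l : Fin 3) (m : ℕ) (z : ℤ), x l ≠ v l + z / 2 ^ m :=
  ae_all_iff.2 fun l => ae_all_iff.2 fun _ => ae_all_iff.2 fun _ => SQ.ae_coord_ne l _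

theorem mem_prel_of_gen {v : V} {x : V} (hx : ∀ (l : Fin 3) (m : ℕ) (z : ℤ), x l ≠ v l + z / 2 ^ m)
    {q : Idx} {h : ℝ} (hq : Function.update x 2 h ∈ squ v (q, 2)) :
    Function.update x 2 h ∈ prel v (q, 2) 0 := by
  refine ⟨hq.1, fun l hl => ?_⟩
  have h1 := hq.2 l hl
  have hl' : l ≠ 2 := hl
  rw [Function.update_of_ne hl'] at h1 ⊢
  have h2 := hx l q.1 (q.2 l)
  have h3 := hx l q.1 (q.2 l + 1)
  push_cast at h3
  rw [add_zero, sub_zero]
  exact ⟨lt_of_le_of_ne h1.1 (Ne.symm h2), lt_of_le_of_ne h1.2 h3⟩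

end Vale.Agent.P073.LOC724
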