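import Vale.Agent.P073.LOC724.A

/-!
# P073, block LOC, rank two: sums of energies over a middle plane. The sum over the squares.
-/

namespace Vale.Agent.P073.LOC724

open MeasureTheory Set Filter Topology Metric Vale.Agent.P073.St
open Vale.Agent.P073.SQ (ev cube Cells dE faceE edgesE)
open Vale.Agent.P073.AB (cl Idx pt edge eInt squ tiles EdgeOf EdgeOfSq RatGood MinSq sqE mem_sqE)
open Vale.Agent.P073.AB.P86 (sc)
open P073.Net (IsTile dyc dyo SizeFn)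
open P073.Plate (pbox prel)
open Vale.Agent.P073.LOC
open scoped ContDiff ENNReal

theorem card_sum_le {α : Type*} (s : Finset α) (f : α → ℝ≥0∞) {N : ℕ} {x : ℝ}
    (hs : s.card ≤ N) (hf : ∀ a ∈ s, f a ≤ ENNReal.ofReal x) :
    ∑ a ∈ s, f a ≤ ENNReal.ofReal (N * x) := by
  refine (Finset.sum_le_card_nsmul s f _ hf).trans ?_
  rw [nsmul_eq_mul, ENNReal.ofReal_mul (by positivity), ENNReal.ofReal_natCast]
  gcongr

theorem sum_biUnion_le {α β : Type*} [DecidableEq β] (s : Finset α) (t : α → Finset β)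
    (f : β → ℝ≥0∞) : ∑ b ∈ s.biUnion t, f b ≤ ∑ a ∈ s, ∑ b ∈ t a, f b := by
  classical
  induction s using Finset.induction_on with
  | empty => simp
  | insert a s ha ih =>
    rw [Finset.biUnion_insert, Finset.sum_insert ha]
    refine le_trans ?_ (add_le_add le_rfl ih)
    rw [← Finset.sum_union_inter]
    exact le_self_add

/-- Energies of `G` on the edges of the middle planes. -/
structure Dat (p ε B : ℝ) (v : V) (n m n₂ k₁ k₀ n₀ : ℕ) (J : Finset (Fin 3 → ℤ)) (G : V → V) :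
    Prop where
  geo : Geo2 v n m n₂ k₁ k₀ n₀ J
  hB : 0 ≤ B
  hε : 0 ≤ ε
  own : ∀ z ∈ J, ∀ e : Idx × Fin 3, FineE v n n₀ e → edge v e ⊆ squ v (plq n₂ z) →
    (∀ z' ∈ J, Disjoint (edge v e) (prel v (plq n₂ z') (1 / 2 ^ (n₂ + k₁)))) →
    eInt v e (dE p G e.2) ≤ ENNReal.ofReal (B / 2 ^ n₀)
  bad : ∑' e : {e : Idx × Fin 3 // FineE v n n₀ e ∧ ∀ z ∈ J, ¬ edge v e ⊆ squ v (plq n₂ z)},
    ENNReal.ofReal (1 / 2 ^ n₀) * eInt v e.1 (dE p G e.1.2) ≤ ENNReal.ofReal ε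
  gap : ∀ z ∈ J, ∀ e : Idx × Fin 3, e.1.1 = n₂ + k₁ →
    edge v e ⊆ pbox v (plq n₂ z) (1 / 2 ^ (n₂ + k₁)) 0 \ prel v (plq n₂ z) (2 / 2 ^ (n₂ + k₁)) →
    ¬ edge v e ⊆ pbox v (plq n₂ z) (1 / 2 ^ (n₂ + k₁)) 0 \
      prel v (plq n₂ z) (1 / 2 ^ (n₂ + k₁)) →
    eInt v e (dE p G e.2) ≤ ENNReal.ofReal (B / 2 ^ (n₂ + k₁))

variable {p ε B : ℝ} {v : V} {n m n₂ k₁ k₀ n₀ : ℕ} {J : Finset (Fin 3 → ℤ)} {G : V → V}

/-- the weighted energy on the edges of a square -/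
noncomputable def W (p : ℝ) (v : V) (G : V → V) (q : Idx) : ℝ≥0∞ :=
  ENNReal.ofReal (1 / 2 ^ q.1) * ∑ e ∈ sqE (q, 2), eInt v e (dE p G e.2)

/-- the plates in the plane of height `h` -/
noncomputable def Jh (v : V) (n₂ : ℕ) (J : Finset (Fin 3 → ℤ)) (h : ℝ) : Finset (Fin 3 → ℤ) :=
  open Classical in J.filter fun z => pt v n₂ z 2 = h

theorem mem_Jh {h : ℝ} {z : Fin 3 → ℤ} : z ∈ Jh v n₂ J h ↔ z ∈ J ∧ pt v n₂ z 2 = h := by
  classical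
  exact Finset.mem_filter

theorem card_Jh (hc : SpecGeo2c) (g : Geo2 v n m n₂ k₁ k₀ n₀ J) {h : ℝ} (hh : IsMid v n h) :
    (Jh v n₂ J h).card ≤ 4 ^ n₂ := by
  have h1 := (hc v n m n₂ k₁ k₀ n₀ J g).2.2.1 h hh
  refine le_trans (le_of_eq ?_) h1
  rw [← Set.ncard_coe_finset]
  congr 1
  ext z
  simp only [Finset.mem_coe, mem_Jh, Set.mem_ofPred_eq]

theorem card_le_of_inj {N a : ℕ} {S : Set (Fin 3 → ℤ)} (hS : S.Finite) (hN : S.ncard ≤ N)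
    (T : Finset Idx) (hT : ∀ q ∈ T, q.1 = a ∧ q.2 ∈ S) : T.card ≤ N := by
  classical
  have h1 : T.card = (T.image Prod.snd).card := by
    rw [Finset.card_image_of_injOn]
    intro q hq q' hq' h
    exact Prod.ext ((hT q hq).1.trans (hT q' hq').1.symm) h
  rw [h1, ← Set.ncard_coe_finset]
  refine (Set.ncard_le_ncard ?_ hS).trans hN
  intro w hw
  rw [Finset.mem_coe, Finset.mem_image] at hw
  obtain ⟨q, hq, rfl⟩ := hw
  exact (hT q hq).2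

theorem pt_mem_edge (v : V) (e : Idx × Fin 3) : pt v e.1.1 e.1.2 ∈ edge v e :=
  left_mem_segment ℝ _ _

theorem height_of_sub {e : Idx × Fin 3} {z : Fin 3 → ℤ} (h : edge v e ⊆ squ v (plq n₂ z)) :
    pt v n₂ z 2 = pt v e.1.1 e.1.2 2 := (h (pt_mem_edge v e)).1.symm

/-- fine squares outside of the plates -/
theorem sum_U (hb : SpecGeo2b) (hc : SpecGeo2c) (D : Dat p ε B v n m n₂ k₁ k₀ n₀ J G) {h : ℝ}
    (hh : IsMid v n h) (T : Finset Idx)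
    (hT : ∀ q ∈ T, q.1 = n₀ ∧ q.2 ∈ sqU v n n₂ n₀ J ∧ pt v q.1 q.2 2 = h) :
    ∑ q ∈ T, W p v G q ≤ 2 * (ENNReal.ofReal ε + ENNReal.ofReal (4 * B / 2 ^ k₁)) := by
  classical
  set a : Idx × Fin 3 → ℝ≥0∞ := fun e => ENNReal.ofReal (1 / 2 ^ n₀) * eInt v e (dE p G e.2) with ha
  set E : Finset (Idx × Fin 3) := T.biUnion fun q => sqE (q, 2) with hE
  obtain ⟨c1, c2, c3, c4, c5⟩ := hc v n m n₂ k₁ k₀ n₀ J D.geo
  obtain ⟨b1, b2, b3⟩ := hb v n m n₂ k₁ k₀ n₀ J D.geo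
  have h1 : ∑ q ∈ T, W p v G q = ∑ e ∈ E, ∑ q ∈ T.filter (fun q => e ∈ sqE (q, 2)), a e := by
    have e1 : ∑ q ∈ T, W p v G q = ∑ q ∈ T, ∑ e ∈ sqE (q, 2), a e := by
      refine Finset.sum_congr rfl fun q hq => ?_
      unfold W
      rw [Finset.mul_sum, (hT q hq).1]
    rw [e1]
    refine Finset.sum_comm' fun q e => ?_
    rw [Finset.mem_filter, hE, Finset.mem_biUnion]
    constructor
    · rintro ⟨hq, he⟩
      exact ⟨⟨hq, he⟩, q, hq, he⟩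
    · rintro ⟨h, -⟩
      exact h
  have h2 : ∀ e ∈ E, ∑ q ∈ T.filter (fun q => e ∈ sqE (q, 2)), a e ≤ 2 * a e := by
    intro e he
    rw [Finset.sum_const, nsmul_eq_mul]
    gcongr
    have := card_le_of_inj (c4 e).1 (c4 e).2 (T.filter (fun q => e ∈ sqE (q, 2))) (a := n₀)
      (fun q hq => by
        rw [Finset.mem_filter] at hq
        refine ⟨(hT q hq.1).1, ?_⟩
        have h3 := mem_sqE.1 hq.2
        have h4 : q = (n₀, q.2) := Prod.ext (hT q hq.1).1 rfl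
        rw [h4] at h3
        exact h3)
    exact_mod_cast this
  have hEe : ∀ e ∈ E, ∃ w ∈ sqU v n n₂ n₀ J, EdgeOfSq e ((n₀, w), 2) ∧
      pt v e.1.1 e.1.2 2 = h := by
    intro e he
    rw [hE, Finset.mem_biUnion] at he
    obtain ⟨q, hq, he⟩ := he
    obtain ⟨t1, t2, t3⟩ := hT q hq
    have h3 := mem_sqE.1 he
    have h4 : q = (n₀, q.2) := Prod.ext t1 rfl
    rw [h4] at h3
    refine ⟨q.2, t2, h3, ?_⟩
    rw [← t3]
    have e1 : e.1.1 = n₀ := h3.1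
    have e2 : e.1.2 2 = q.2 2 := h3.2.2.2.1
    simp only [pt]
    rw [e1, e2, t1]
  rw [h1]
  refine (Finset.sum_le_sum h2).trans ?_
  rw [← Finset.mul_sum]
  gcongr
  rw [← Finset.sum_filter_add_sum_filter_not E (fun e => ∀ z ∈ J, ¬ edge v e ⊆ squ v (plq n₂ z))]
  refine add_le_add ?_ ?_
  · refine le_trans ?_ D.bad
    have h5 : ∑ e ∈ E.filter (fun e => ∀ z ∈ J, ¬ edge v e ⊆ squ v (plq n₂ z)), a e =
        ∑' e : {e // e ∈ E.filter (fun e => ∀ z ∈ J, ¬ edge v e ⊆ squ v (plq n₂ z))}, a e := by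
      rw [Finset.tsum_subtype]
    rw [h5]
    refine ENNReal.tsum_mono_subtype a
      (s := {e | e ∈ E.filter (fun e => ∀ z ∈ J, ¬ edge v e ⊆ squ v (plq n₂ z))})
      (t := {e | FineE v n n₀ e ∧ ∀ z ∈ J, ¬ edge v e ⊆ squ v (plq n₂ z)}) ?_
    intro e he
    rw [Set.mem_ofPred_eq, Finset.mem_filter] at he
    obtain ⟨w, hw, h3, -⟩ := hEe e he.1
    exact ⟨(b1 w (Or.inl hw) e h3).1, he.2⟩
  · set Ez : (Fin 3 → ℤ) → Finset (Idx × Fin 3) := fun z =>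
      E.filter (fun e => edge v e ⊆ squ v (plq n₂ z)) with hEz
    have h5 : E.filter (fun e => ¬ ∀ z ∈ J, ¬ edge v e ⊆ squ v (plq n₂ z)) ⊆
        (Jh v n₂ J h).biUnion Ez := by
      intro e he
      rw [Finset.mem_filter] at he
      obtain ⟨he, hne⟩ := he
      push Not at hne
      obtain ⟨z, hz, hez⟩ := hne
      rw [Finset.mem_biUnion]
      refine ⟨z, mem_Jh.2 ⟨hz, ?_⟩, Finset.mem_filter.2 ⟨he, hez⟩⟩
      obtain ⟨w, hw, h3, h4⟩ := hEe e he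
      rw [height_of_sub hez, h4]
    refine (Finset.sum_le_sum_of_subset h5).trans ?_
    refine (sum_biUnion_le _ _ _).trans ?_
    have h6 : ∀ z ∈ Jh v n₂ J h, ∑ e ∈ Ez z, a e ≤
        ENNReal.ofReal ((4 * 2 ^ (k₁ + k₀) : ℕ) * (1 / 2 ^ n₀ * (B / 2 ^ n₀))) := by
      intro z hz
      have hzJ := (mem_Jh.1 hz).1
      refine card_sum_le _ _ ?_ fun e he => ?_
      · rw [← Set.ncard_coe_finset]
        refine (Set.ncard_le_ncard ?_ (c5 z hzJ).1).trans (c5 z hzJ).2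
        intro e he
        rw [Finset.mem_coe, Finset.mem_filter] at he
        obtain ⟨w, hw, h3, -⟩ := hEe e he.1
        exact ⟨he.2, w, hw, h3⟩
      · rw [Finset.mem_filter] at he
        obtain ⟨w, hw, h3, -⟩ := hEe e he.1
        rw [ENNReal.ofReal_mul (by positivity)]
        exact mul_le_mul_right (D.own z hzJ e (b1 w (Or.inl hw) e h3).1 he.2
          (b1 w (Or.inl hw) e h3).2) _
    refine (card_sum_le _ _ (card_Jh hc D.geo hh) h6).trans (ENNReal.ofReal_le_ofReal ?_)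
    rw [D.geo.eqn]
    push_cast
    have hB := D.hB
    have e1 : (4:ℝ) ^ n₂ = 2 ^ n₂ * 2 ^ n₂ := by rw [← mul_pow]; norm_num
    rw [e1, pow_add, pow_add, pow_add]
    have hk0 : (1:ℝ) ≤ 2 ^ k₀ := one_le_pow₀ (by norm_num)
    have e2 : (2:ℝ) ^ n₂ * 2 ^ n₂ * (4 * (2 ^ k₁ * 2 ^ k₀) *
        (1 / (2 ^ n₂ * 2 ^ k₁ * 2 ^ k₀) * (B / (2 ^ n₂ * 2 ^ k₁ * 2 ^ k₀)))) =
        4 * B / 2 ^ k₁ / 2 ^ k₀ := by
      field_simp
    rw [e2]
    exact div_le_self (by positivity) hk0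

/-- fine squares of the frames -/
theorem sum_F (hb : SpecGeo2b) (hc : SpecGeo2c) (D : Dat p ε B v n m n₂ k₁ k₀ n₀ J G) {h : ℝ}
    (hh : IsMid v n h) (T : (Fin 3 → ℤ) → Finset Idx)
    (hT : ∀ z, ∀ q ∈ T z, q.1 = n₀ ∧ q.2 ∈ sqF v n₂ k₁ n₀ z) :
    ∑ z ∈ Jh v n₂ J h, ∑ q ∈ T z, W p v G q ≤ ENNReal.ofReal (16 * B / 2 ^ k₁) := by
  classical
  obtain ⟨c1, c2, c3, c4, c5⟩ := hc v n m n₂ k₁ k₀ n₀ J D.geo
  obtain ⟨b1, b2, b3⟩ := hb v n m n₂ k₁ k₀ n₀ J D.geo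
  have hB := D.hB
  have h6 : ∀ z ∈ Jh v n₂ J h, ∑ q ∈ T z, W p v G q ≤
      ENNReal.ofReal ((4 * 2 ^ k₀ * 2 ^ (k₁ + k₀) : ℕ) *
        (1 / 2 ^ n₀ * ((4 : ℕ) * (B / 2 ^ n₀)))) := by
    intro z hz
    have hzJ := (mem_Jh.1 hz).1
    refine card_sum_le _ _ (card_le_of_inj (c1 z hzJ).1 (c1 z hzJ).2 _ (hT z)) fun q hq => ?_
    obtain ⟨t1, t2⟩ := hT z q hq
    unfold W
    rw [t1, ENNReal.ofReal_mul (by positivity)]
    refine mul_le_mul_right (card_sum_le _ _ (AB.card_sqE_le _) fun e he => ?_) _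
    have h3 := mem_sqE.1 he
    have h4 : q = (n₀, q.2) := Prod.ext t1 rfl
    rw [h4] at h3
    have h5 := b1 q.2 (Or.inr ⟨z, hzJ, t2⟩) e h3
    exact D.own z hzJ e h5.1 (b2 z hzJ q.2 t2 e h3) h5.2
  refine (card_sum_le _ _ (card_Jh hc D.geo hh) h6).trans (ENNReal.ofReal_le_ofReal (le_of_eq ?_))
  rw [D.geo.eqn]
  push_cast
  have e1 : (4:ℝ) ^ n₂ = 2 ^ n₂ * 2 ^ n₂ := by rw [← mul_pow]; norm_num
  rw [e1, pow_add, pow_add, pow_add]
  field_simp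
  ring

/-- gap squares -/
theorem sum_G (hb : SpecGeo2b) (hc : SpecGeo2c) (D : Dat p ε B v n m n₂ k₁ k₀ n₀ J G) {h : ℝ}
    (hh : IsMid v n h) (T : (Fin 3 → ℤ) → Finset Idx)
    (hT : ∀ z, ∀ q ∈ T z, q.1 = n₂ + k₁ ∧ q.2 ∈ sqG v n₂ k₁ z) :
    ∑ z ∈ Jh v n₂ J h, ∑ q ∈ T z, W p v G q ≤ ENNReal.ofReal (16 * B / 2 ^ k₁) := by
  classical
  obtain ⟨c1, c2, c3, c4, c5⟩ := hc v n m n₂ k₁ k₀ n₀ J D.geo
  obtain ⟨b1, b2, b3⟩ := hb v n m n₂ k₁ k₀ n₀ J D.geo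
  have hB := D.hB
  have h6 : ∀ z ∈ Jh v n₂ J h, ∑ q ∈ T z, W p v G q ≤
      ENNReal.ofReal ((4 * 2 ^ k₁ : ℕ) *
        (1 / 2 ^ (n₂ + k₁) * ((4 : ℕ) * (B / 2 ^ (n₂ + k₁))))) := by
    intro z hz
    have hzJ := (mem_Jh.1 hz).1
    refine card_sum_le _ _ (card_le_of_inj (c2 z hzJ).1 (c2 z hzJ).2 _ (hT z)) fun q hq => ?_
    obtain ⟨t1, t2⟩ := hT z q hq
    unfold W
    rw [t1, ENNReal.ofReal_mul (by positivity)]
    refine mul_le_mul_right (card_sum_le _ _ (AB.card_sqE_le _) fun e he => ?_) _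
    have h3 := mem_sqE.1 he
    have h4 : q = (n₂ + k₁, q.2) := Prod.ext t1 rfl
    rw [h4] at h3
    rcases b3 z hzJ q.2 t2 e h3 with h5 | ⟨S, hS, hS1, hS2⟩
    · exact D.gap z hzJ e h3.1 h5.1 h5.2
    · refine (hS2 _ (AB.S293.measurable_dE p G e.2)).trans ?_
      refine (card_sum_le S _ (N := 2 ^ k₀) (x := B / 2 ^ n₀) hS.le fun e' he' => ?_).trans
        (ENNReal.ofReal_le_ofReal (le_of_eq ?_))
      · obtain ⟨s1, s2, s3, s4⟩ := hS1 e' he'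
        rw [← s1]
        exact D.own z hzJ e' s2 s3 s4
      · rw [D.geo.eqn]
        push_cast
        rw [pow_add _ (n₂ + k₁) k₀]
        field_simp
  refine (card_sum_le _ _ (card_Jh hc D.geo hh) h6).trans (ENNReal.ofReal_le_ofReal (le_of_eq ?_))
  push_cast
  have e1 : (4:ℝ) ^ n₂ = 2 ^ n₂ * 2 ^ n₂ := by rw [← mul_pow]; norm_num
  rw [e1, pow_add]
  field_simp
  ring

end Vale.Agent.P073.LOC724
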