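import Vale.Agent.P073.LOC724.B

/-!
# P073, block LOC, rank two: the energy over a middle plane
-/

namespace Vale.Agent.P073.LOC724

open MeasureTheory Set Filter Topology Metric Vale.Agent.P073.St
open Vale.Agent.P073.SQ (ev cube Cells dE faceE edgesE)
open Vale.Agent.P073.AB (cl Idx pt edge eInt squ tiles EdgeOf EdgeOfSq RatGood MinSq sqE mem_sqE)
open Vale.Agent.P073.AB.P86 (sc)
open P073.Net (IsTile dyc dyo SizeFn)
open P073.Plate (pbox prel)
open Vale.Agent.P073.LOC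
open scoped ContDiff ENNReal

variable {p ε B : ℝ} {v : V} {n m n₂ k₁ k₀ n₀ : ℕ} {J : Finset (Fin 3 → ℤ)} {G : V → V}

theorem sum_union_le {β : Type*} [DecidableEq β] (s t : Finset β) (f : β → ℝ≥0∞) :
    ∑ b ∈ s ∪ t, f b ≤ ∑ b ∈ s, f b + ∑ b ∈ t, f b := by
  rw [← Finset.sum_union_inter]
  exact le_self_add

theorem pt_mem_squ (v : V) (q : Idx) : pt v q.1 q.2 ∈ squ v (q, 2) := by
  have hp : (0:ℝ) < 1 / 2 ^ q.1 := by positivity
  refine ⟨rfl, fun k _ => ⟨le_rfl, ?_⟩⟩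
  change v k + (q.2 k : ℝ) / 2 ^ q.1 ≤ v k + (q.2 k + 1) / 2 ^ q.1
  rw [add_div]; linarith

/-- a finite set of squares in the plane of height `h` -/
structure Sq (v : V) (n n₂ k₁ n₀ : ℕ) (J : Finset (Fin 3 → ℤ)) (h : ℝ) (S : Finset Idx) : Prop where
  sub : ∀ q ∈ S, q ∈ SqAll v n n₂ k₁ n₀ J
  ht : ∀ q ∈ S, pt v q.1 q.2 2 = h

open Classical in
theorem split {h : ℝ} {S : Finset Idx} (hS : Sq v n n₂ k₁ n₀ J h S) :
    S ⊆ (S.filter fun q => q.1 = n₀ ∧ q.2 ∈ sqU v n n₂ n₀ J) ∪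
      ((Jh v n₂ J h).biUnion fun z => S.filter fun q => q.1 = n₀ ∧ q.2 ∈ sqF v n₂ k₁ n₀ z) ∪
      ((Jh v n₂ J h).biUnion fun z => S.filter fun q => q.1 = n₂ + k₁ ∧ q.2 ∈ sqG v n₂ k₁ z) := by
  intro q hq
  have hh := hS.ht q hq
  rw [Finset.mem_union, Finset.mem_union, Finset.mem_biUnion, Finset.mem_biUnion]
  rcases hS.sub q hq with h1 | ⟨z, hz, h1, h2⟩ | ⟨z, hz, h1, h2⟩
  · exact Or.inl (Or.inl (Finset.mem_filter.2 ⟨hq, h1⟩))
  · refine Or.inl (Or.inr ⟨z, mem_Jh.2 ⟨hz, ?_⟩, Finset.mem_filter.2 ⟨hq, h1, h2⟩⟩)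
    have h3 : squ v ((n₀, q.2), 2) ⊆ squ v (plq n₂ z) := h2.1
    have h4 := (h3 (pt_mem_squ v (n₀, q.2))).1
    rw [← hh]
    have h5 : pt v q.1 q.2 = pt v n₀ q.2 := by rw [h1]
    rw [h5]
    exact h4.symm
  · refine Or.inr ⟨z, mem_Jh.2 ⟨hz, ?_⟩, Finset.mem_filter.2 ⟨hq, h1, h2⟩⟩
    have h3 : squ v ((n₂ + k₁, q.2), 2) ⊆ pbox v (plq n₂ z) (1 / 2 ^ (n₂ + k₁)) 0 := h2.1
    have h4 := (h3 (pt_mem_squ v (n₂ + k₁, q.2))).1
    rw [← hh]
    have h5 : pt v q.1 q.2 = pt v (n₂ + k₁) q.2 := by rw [h1]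
    rw [h5]
    have h6 := abs_nonpos_iff.1 h4
    exact (sub_eq_zero.1 h6).symm

/-- the sum of the weighted energies -/
theorem sum_all (hb : SpecGeo2b) (hc : SpecGeo2c) (D : Dat p ε B v n m n₂ k₁ k₀ n₀ J G) {h : ℝ}
    (hh : IsMid v n h) {S : Finset Idx} (hS : Sq v n n₂ k₁ n₀ J h S) :
    ∑ q ∈ S, W p v G q ≤ ENNReal.ofReal (2 * ε + 40 * B / 2 ^ k₁) := by
  classical
  have hB := D.hB
  have hε := D.hε
  refine (Finset.sum_le_sum_of_subset (split hS)).trans ?_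
  refine (sum_union_le _ _ _).trans ?_
  have h1 := sum_U hb hc D hh (S.filter fun q => q.1 = n₀ ∧ q.2 ∈ sqU v n n₂ n₀ J) (by
    intro q hq
    rw [Finset.mem_filter] at hq
    exact ⟨hq.2.1, hq.2.2, hS.ht q hq.1⟩)
  have h2 := sum_F hb hc D hh (fun z => S.filter fun q => q.1 = n₀ ∧ q.2 ∈ sqF v n₂ k₁ n₀ z)
    (fun z q hq => (Finset.mem_filter.1 hq).2)
  have h3 := sum_G hb hc D hh
    (fun z => S.filter fun q => q.1 = n₂ + k₁ ∧ q.2 ∈ sqG v n₂ k₁ z)
    (fun z q hq => (Finset.mem_filter.1 hq).2)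
  calc _ ≤ (2 * (ENNReal.ofReal ε + ENNReal.ofReal (4 * B / 2 ^ k₁)) +
        ENNReal.ofReal (16 * B / 2 ^ k₁)) + ENNReal.ofReal (16 * B / 2 ^ k₁) := by
        refine add_le_add ((sum_union_le _ _ _).trans (add_le_add h1 ?_)) ?_
        · exact (sum_biUnion_le _ _ _).trans h2
        · exact (sum_biUnion_le _ _ _).trans h3
    _ = _ := by
        have e2 : (2:ℝ≥0∞) = ENNReal.ofReal 2 := by norm_num
        rw [e2, ← ENNReal.ofReal_add hε (by positivity), ← ENNReal.ofReal_mul (by norm_num),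
          ← ENNReal.ofReal_add (by positivity) (by positivity),
          ← ENNReal.ofReal_add (by positivity) (by positivity)]
        congr 1
        ring

open Classical in
/-- the volume of the columns over the squares -/
theorem vol_all (ha : SpecGeo2a) (hc : SpecGeo2c) (g : Geo2 v n m n₂ k₁ k₀ n₀ J) {h : ℝ}
    (hh : IsMid v n h) {S : Finset Idx} (hS : Sq v n n₂ k₁ n₀ J h S) (hε : 0 ≤ ε)
    (harea : volume {x | x ∈ core v n ∧ ∀ z ∈ J, Function.update x 2 h ∉ squ v (plq n₂ z)} ≤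
      ENNReal.ofReal ε) :
    volume (⋃ q ∈ S, col v n h (squ v (q, 2))) ≤ ENNReal.ofReal (ε + 8 / 2 ^ k₁) := by
  obtain ⟨c1, c2, c3, c4, c5⟩ := hc v n m n₂ k₁ k₀ n₀ J g
  obtain ⟨a1, a2, a3, a4, a5⟩ := ha v n m n₂ k₁ k₀ n₀ J g
  have hn := g.hn
  set U := S.filter fun q => q.1 = n₀ ∧ q.2 ∈ sqU v n n₂ n₀ J with hU
  set F : (Fin 3 → ℤ) → Finset Idx := fun z => S.filter fun q => q.1 = n₀ ∧ q.2 ∈ sqF v n₂ k₁ n₀ z
    with hF
  set E : (Fin 3 → ℤ) → Finset Idx := fun z => S.filter fun q => q.1 = n₂ + k₁ ∧ q.2 ∈ sqG v n₂ k₁ z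
    with hE
  have hsub : (⋃ q ∈ S, col v n h (squ v (q, 2))) ⊆ (⋃ q ∈ U, col v n h (squ v (q, 2))) ∪
      (⋃ z ∈ Jh v n₂ J h, ⋃ q ∈ F z, col v n h (squ v (q, 2))) ∪
      (⋃ z ∈ Jh v n₂ J h, ⋃ q ∈ E z, col v n h (squ v (q, 2))) := by
    intro x hx
    simp only [mem_iUnion, exists_prop] at hx
    obtain ⟨q, hq, hx⟩ := hx
    have h1 := split hS hq
    rw [Finset.mem_union, Finset.mem_union, Finset.mem_biUnion, Finset.mem_biUnion] at h1
    simp only [mem_union, mem_iUnion, exists_prop]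
    rcases h1 with (h1 | ⟨z, hz, h1⟩) | ⟨z, hz, h1⟩
    · exact Or.inl (Or.inl ⟨q, h1, hx⟩)
    · exact Or.inl (Or.inr ⟨z, hz, q, h1, hx⟩)
    · exact Or.inr ⟨z, hz, q, h1, hx⟩
  have hSc : ∀ q ∈ S, squ v (q, 2) ⊆ core v n := fun q hq => (a2 q (hS.sub q hq)).1
  have hvU : volume (⋃ q ∈ U, col v n h (squ v (q, 2))) ≤ ENNReal.ofReal ε := by
    refine le_trans (measure_mono_ae ?_) harea
    filter_upwards [ae_gen v] with x hx hxU
    change x ∈ ⋃ q ∈ U, col v n h (squ v (q, 2)) at hxU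
    simp only [mem_iUnion, exists_prop] at hxU
    obtain ⟨q, hq, hxq⟩ := hxU
    rw [hU, Finset.mem_filter] at hq
    obtain ⟨hqS, hq1, hq2⟩ := hq
    refine ⟨hxq.1, fun z hz hxz => ?_⟩
    have h3 := mem_prel_of_gen hx hxq.2
    have h4 := a3 q.2 hq2 z hz
    have h5 : q = (n₀, q.2) := Prod.ext hq1 rfl
    rw [h5] at h3
    exact Set.disjoint_left.1 h4 h3 hxz
  have hvF : volume (⋃ z ∈ Jh v n₂ J h, ⋃ q ∈ F z, col v n h (squ v (q, 2))) ≤
      ENNReal.ofReal (4 / 2 ^ k₁) := by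
    refine (measure_biUnion_finset_le _ _).trans ?_
    refine (card_sum_le (Jh v n₂ J h) _ (x := (4 * 2 ^ k₀ * 2 ^ (k₁ + k₀) : ℕ) * (1 / 4 ^ n₀))
      (card_Jh hc g hh) fun z hz => (measure_biUnion_finset_le _ _).trans
      (card_sum_le _ _ (card_le_of_inj (c1 z (mem_Jh.1 hz).1).1 (c1 z (mem_Jh.1 hz).1).2 _
        fun q hq => (Finset.mem_filter.1 hq).2) fun q hq => ?_)).trans
      (ENNReal.ofReal_le_ofReal (le_of_eq ?_))
    · rw [Finset.mem_filter] at hq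
      have h6 := vol_col hn (hSc q hq.1) (hS.ht q hq.1)
      rwa [hq.2.1] at h6
    · rw [g.eqn]
      push_cast
      have e1 : ∀ k : ℕ, (4:ℝ) ^ k = 2 ^ k * 2 ^ k := fun k => by rw [← mul_pow]; norm_num
      rw [e1, e1, pow_add, pow_add, pow_add]
      field_simp
  have hvE : volume (⋃ z ∈ Jh v n₂ J h, ⋃ q ∈ E z, col v n h (squ v (q, 2))) ≤
      ENNReal.ofReal (4 / 2 ^ k₁) := by
    refine (measure_biUnion_finset_le _ _).trans ?_
    refine (card_sum_le (Jh v n₂ J h) _ (x := (4 * 2 ^ k₁ : ℕ) * (1 / 4 ^ (n₂ + k₁)))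
      (card_Jh hc g hh) fun z hz => (measure_biUnion_finset_le _ _).trans
      (card_sum_le _ _ (card_le_of_inj (c2 z (mem_Jh.1 hz).1).1 (c2 z (mem_Jh.1 hz).1).2 _
        fun q hq => (Finset.mem_filter.1 hq).2) fun q hq => ?_)).trans
      (ENNReal.ofReal_le_ofReal (le_of_eq ?_))
    · rw [Finset.mem_filter] at hq
      have h6 := vol_col hn (hSc q hq.1) (hS.ht q hq.1)
      rwa [hq.2.1] at h6
    · push_cast
      have e1 : ∀ k : ℕ, (4:ℝ) ^ k = 2 ^ k * 2 ^ k := fun k => by rw [← mul_pow]; norm_num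
      rw [e1, e1, pow_add]
      field_simp
  refine (measure_mono hsub).trans ((measure_union_le _ _).trans ?_)
  calc _ ≤ (ENNReal.ofReal ε + ENNReal.ofReal (4 / 2 ^ k₁)) + ENNReal.ofReal (4 / 2 ^ k₁) :=
        add_le_add ((measure_union_le _ _).trans (add_le_add hvU hvF)) hvE
    _ = _ := by
        rw [← ENNReal.ofReal_add hε (by positivity), ← ENNReal.ofReal_add (by positivity)
          (by positivity)]
        congr 1
        ring

/-- **the energy over a middle plane** -/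
theorem sec_le (ha : SpecGeo2a) (hb : SpecGeo2b) (hc : SpecGeo2c) (hp : 1 ≤ p) (hp2 : p < 2)
    (D : Dat p ε B v n m n₂ k₁ k₀ n₀ J G) (G' : V → V) {C₂ : ℝ≥0∞} {η : Idx → ℝ≥0∞}
    (hface : ∀ q ∈ SqAll v n n₂ k₁ n₀ J, faceE p G' (sc v (q, 2)) 2 (1 / 2 / 2 ^ q.1) ≤
      C₂ * (ENNReal.ofReal ((1 / 2 ^ q.1) ^ 2) * ∑ e ∈ sqE (q, 2), eInt v e (dE p G e.2)) + η q)
    {t : ℝ} (hη : ∑' q : Idx, ENNReal.ofReal (2 ^ q.1) * η q ≤ ENNReal.ofReal t)
    (L : V →L[ℝ] V) {M r : ℝ} (hL : ∀ j, ‖L (ev j)‖ ≤ M) {h : ℝ} (hh : IsMid v n h)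
    (hbox : ∑ z ∈ Jh v n₂ J h, ∑ j ∈ Finset.univ.erase (2 : Fin 3),
      ∫⁻ x in col v n h (pbox v (plq n₂ z) (2 / 2 ^ (n₂ + k₁)) 0),
        ENNReal.ofReal (‖fderiv ℝ G' (Function.update x 2 h) (ev j) - L (ev j)‖ ^ p) ≤
      ENNReal.ofReal r)
    (harea : volume {x | x ∈ core v n ∧ ∀ z ∈ J, Function.update x 2 h ∉ squ v (plq n₂ z)} ≤
      ENNReal.ofReal ε) :
    ∑ j ∈ Finset.univ.erase (2 : Fin 3), ∫⁻ x in core v n,
      ENNReal.ofReal (‖fderiv ℝ G' (Function.update x 2 h) (ev j) - L (ev j)‖ ^ p) ≤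
      ENNReal.ofReal r + (2 * (C₂ * ENNReal.ofReal (2 * ε + 40 * B / 2 ^ k₁) + ENNReal.ofReal t) +
        2 * (2 * (ENNReal.ofReal (M ^ p) * ENNReal.ofReal (ε + 8 / 2 ^ k₁)))) := by
  classical
  obtain ⟨a1, a2, a3, a4, a5⟩ := ha v n m n₂ k₁ k₀ n₀ J D.geo
  have hn := D.geo.hn
  set S : Finset Idx := a1.toFinset.filter fun q => pt v q.1 q.2 2 = h with hSdef
  have hS : Sq v n n₂ k₁ n₀ J h S := by
    constructor
    · intro q hq
      rw [hSdef, Finset.mem_filter] at hq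
      exact a1.mem_toFinset.1 hq.1
    · intro q hq
      rw [hSdef, Finset.mem_filter] at hq
      exact hq.2
  set f : Fin 3 → V → ℝ≥0∞ := fun j x =>
    ENNReal.ofReal (‖fderiv ℝ G' (Function.update x 2 h) (ev j) - L (ev j)‖ ^ p) with hf
  set N : Set V := ⋃ q ∈ S, col v n h (squ v (q, 2)) with hN
  have hcov : core v n ⊆
      (⋃ z ∈ Jh v n₂ J h, col v n h (pbox v (plq n₂ z) (2 / 2 ^ (n₂ + k₁)) 0)) ∪ N := by
    intro x hx
    rcases a5 h hh x hx with ⟨z, hz, hz1, hz2⟩ | ⟨q, hq, hq1, hq2⟩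
    · left
      simp only [mem_iUnion, exists_prop]
      exact ⟨z, mem_Jh.2 ⟨hz, hz1⟩, hx, hz2⟩
    · right
      simp only [hN, mem_iUnion, exists_prop]
      exact ⟨q, Finset.mem_filter.2 ⟨a1.mem_toFinset.2 hq, hq1⟩, hx, hq2⟩
  have h1 : ∀ j, ∫⁻ x in core v n, f j x ≤
      (∑ z ∈ Jh v n₂ J h, ∫⁻ x in col v n h (pbox v (plq n₂ z) (2 / 2 ^ (n₂ + k₁)) 0), f j x) +
        ∫⁻ x in N, f j x := fun j =>
    (lintegral_mono_set hcov).trans ((lintegral_union_le _ _ _).trans (add_le_add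
      (AB.S293.setLIntegral_biUnion_le _ _ _) le_rfl))
  have hdE : ∀ j, Measurable fun x : V => dE p G' j (Function.update x 2 h) := fun j =>
    (AB.S293.measurable_dE p G' j).comp (measurable_updh h)
  have h2 : ∀ j, ∫⁻ x in N, f j x ≤
      2 * (∑ q ∈ S, ∫⁻ x in col v n h (squ v (q, 2)), dE p G' j (Function.update x 2 h)) +
        2 * (ENNReal.ofReal (M ^ p) * volume N) := by
    intro j
    have h3 : ∀ x, f j x ≤ 2 * dE p G' j (Function.update x 2 h) + 2 * ENNReal.ofReal (M ^ p) := by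
      intro x
      have h4 := AB.S293.ofReal_pow_le hp hp2
        (fderiv ℝ G' (Function.update x 2 h) (ev j) - L (ev j)) (-(L (ev j)))
      rw [sub_neg_eq_add, sub_add_cancel, norm_neg] at h4
      refine h4.trans ?_
      gcongr
      · exact le_rfl
      · exact hL j
    calc ∫⁻ x in N, f j x
        ≤ ∫⁻ x in N, (2 * dE p G' j (Function.update x 2 h) + 2 * ENNReal.ofReal (M ^ p)) :=
          lintegral_mono fun x => h3 x
      _ = 2 * (∫⁻ x in N, dE p G' j (Function.update x 2 h)) +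
          2 * ENNReal.ofReal (M ^ p) * volume N := by
          rw [lintegral_add_right _ measurable_const, lintegral_const_mul' _ _ (by norm_num),
            setLIntegral_const]
      _ ≤ _ := by
          rw [mul_assoc]
          gcongr
          exact AB.S293.setLIntegral_biUnion_le _ _ _
  have h5 : ∑ j ∈ Finset.univ.erase (2 : Fin 3), ∑ q ∈ S,
      ∫⁻ x in col v n h (squ v (q, 2)), dE p G' j (Function.update x 2 h) ≤
      C₂ * ENNReal.ofReal (2 * ε + 40 * B / 2 ^ k₁) + ENNReal.ofReal t := by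
    rw [Finset.sum_comm]
    calc ∑ q ∈ S, ∑ j ∈ Finset.univ.erase (2 : Fin 3),
        ∫⁻ x in col v n h (squ v (q, 2)), dE p G' j (Function.update x 2 h)
        ≤ ∑ q ∈ S, (C₂ * W p v G q + ENNReal.ofReal (2 ^ q.1) * η q) := by
          refine Finset.sum_le_sum fun q hq => ?_
          refine (face_col hn (a2 q (hS.sub q hq)).1 (hS.ht q hq) p G').trans ?_
          refine (mul_le_mul_right (hface q (hS.sub q hq)) _).trans ?_
          rw [mul_add]
          refine add_le_add (le_of_eq ?_) le_rfl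
          unfold W
          have e1 : ENNReal.ofReal (2 ^ q.1) * ENNReal.ofReal ((1 / 2 ^ q.1) ^ 2) =
              ENNReal.ofReal (1 / 2 ^ q.1) := by
            rw [← ENNReal.ofReal_mul (by positivity)]
            congr 1
            field_simp
          rw [← e1]
          ring
      _ ≤ _ := by
          rw [Finset.sum_add_distrib, ← Finset.mul_sum]
          refine add_le_add (mul_le_mul_right (sum_all hb hc D hh hS) _) ?_
          exact (ENNReal.sum_le_tsum S).trans hη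
  have h6 := vol_all ha hc D.geo hh hS D.hε harea
  calc ∑ j ∈ Finset.univ.erase (2 : Fin 3), ∫⁻ x in core v n, f j x
      ≤ ∑ j ∈ Finset.univ.erase (2 : Fin 3),
        ((∑ z ∈ Jh v n₂ J h,
          ∫⁻ x in col v n h (pbox v (plq n₂ z) (2 / 2 ^ (n₂ + k₁)) 0), f j x) +
        (2 * (∑ q ∈ S, ∫⁻ x in col v n h (squ v (q, 2)), dE p G' j (Function.update x 2 h)) +
          2 * (ENNReal.ofReal (M ^ p) * ENNReal.ofReal (ε + 8 / 2 ^ k₁)))) := by
        refine Finset.sum_le_sum fun j _ => (h1 j).trans (add_le_add le_rfl ((h2 j).trans ?_))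
        gcongr
    _ ≤ _ := by
        rw [Finset.sum_add_distrib, Finset.sum_add_distrib, Finset.sum_comm, ← Finset.mul_sum]
        refine add_le_add hbox (add_le_add (mul_le_mul_right h5 _) ?_)
        rw [Finset.sum_const]
        have e2 : (Finset.univ.erase (2 : Fin 3)).card = 2 := rfl
        rw [e2, nsmul_eq_mul, Nat.cast_ofNat]

end Vale.Agent.P073.LOC724
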