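import Vale.Agent.P073.LOC724.C
import Vale.Agent.P073.LOC.Geo2b

/-!
# P073, block LOC, rank two: the energies of the diffeomorphism of `SpecGaugeSec2`
-/

namespace Vale.Agent.P073.LOC724

open MeasureTheory Set Filter Topology Metric Vale.Agent.P073.St
open Vale.Agent.P073.SQ (ev cube Cells dE faceE edgesE)
open Vale.Agent.P073.AB (cl Idx pt edge eInt squ tiles EdgeOf EdgeOfSq RatGood MinSq sqE mem_sqE)
open Vale.Agent.P073.AB.P86 (sc)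
open P073.Net (IsTile dyc dyo SizeFn)
open P073.Plate (pbox prel)
open Vale.Agent.P073.LOC
open scoped ContDiff ENNReal

theorem prel_anti {v : V} {s : Idx × Fin 3} {δ δ' : ℝ} (h : δ ≤ δ') : prel v s δ' ⊆ prel v s δ :=
  fun _ hx => ⟨hx.1, fun k hk => ⟨by linarith [(hx.2 k hk).1], by linarith [(hx.2 k hk).2]⟩⟩

/-- a fine edge which is not in a plate misses the relative interior of the plate -/
theorem fine_disj {v : V} {n₂ d : ℕ} {z : Fin 3 → ℤ} {e : Idx × Fin 3} (he : e.1.1 = n₂ + d)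
    (he2 : e.2 ≠ 2) (hne : ¬ edge v e ⊆ squ v (plq n₂ z)) {δ : ℝ} (hδ : 0 ≤ δ) :
    Disjoint (edge v e) (prel v (plq n₂ z) δ) := by
  rw [Set.disjoint_left]
  intro x hx hx'
  apply hne
  have h1 := (Geo2b.mem_edge he).1 hx
  have h2 : x ∈ prel v (plq n₂ z) ((0:ℤ) / 2 ^ (n₂ + d)) := by
    have : ((0:ℤ) / 2 ^ (n₂ + d) : ℝ) = 0 := by simp
    rw [this]
    exact prel_anti hδ hx'
  have h3 := Geo2b.mem_prel.1 h2
  rw [Geo2b.squ_eq d]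
  intro y hy
  have h4 := (Geo2b.mem_edge he).1 hy
  rw [Geo2b.mem_pbox]
  refine ⟨?_, fun i hi => ?_⟩
  · rw [h4.1 2 (Ne.symm he2), ← h1.1 2 (Ne.symm he2), h3.1]
  · by_cases hie : i = e.2
    · obtain ⟨a1, a2⟩ := h3.2 i hi
      subst hie
      have b1 : ((z e.2 * 2 ^ d + 0 : ℤ) : ℝ) < ((e.1.2 e.2 + 1 : ℤ) : ℝ) := by
        push_cast at a1 ⊢
        linarith [h1.2.2]
      have b2 : ((e.1.2 e.2 : ℤ) : ℝ) < (((z e.2 + 1) * 2 ^ d - 0 : ℤ) : ℝ) :=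
        lt_of_le_of_lt h1.2.1 a2
      have c1 : z e.2 * 2 ^ d + 0 ≤ e.1.2 e.2 := by
        have : z e.2 * 2 ^ d + 0 < e.1.2 e.2 + 1 := by exact_mod_cast b1
        omega
      have c2 : e.1.2 e.2 + 1 ≤ (z e.2 + 1) * 2 ^ d - 0 := by
        have : e.1.2 e.2 < (z e.2 + 1) * 2 ^ d - 0 := by exact_mod_cast b2
        omega
      have c1' : ((z e.2 * 2 ^ d + 0 : ℤ) : ℝ) ≤ e.1.2 e.2 := by exact_mod_cast c1
      have c2' : ((e.1.2 e.2 + 1 : ℤ) : ℝ) ≤ (((z e.2 + 1) * 2 ^ d - 0 : ℤ) : ℝ) := by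
        exact_mod_cast c2
      refine ⟨c1'.trans h4.2.1, ?_⟩
      refine h4.2.2.trans ?_
      push_cast at c2' ⊢
      linarith
    · obtain ⟨a1, a2⟩ := h3.2 i hi
      rw [h1.1 i hie] at a1 a2
      rw [h4.1 i hie]
      exact ⟨a1.le, a2.le⟩

variable {p ε θ M κ C : ℝ} {k₁ k₀ n m : ℕ} {L : V →L[ℝ] V} {Λ : Set V} {f : V → V} {F : V → Mat}

theorem geoOf (c : Choice2 p ε θ M κ C k₁ k₀ n m L Λ f F) (hn : 3 ≤ n) (hm : n + 2 ≤ m)
    (hk₁ : 3 ≤ k₁) (hk₀ : 1 ≤ k₀) : Geo2 c.v n m c.n₂ k₁ k₀ c.n₀ c.J :=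
  ⟨c.org, hn, hm, c.le, hk₁, hk₀, c.eqn, c.sub, c.mid⟩

theorem norm_B_le (c : Choice2 p ε θ M κ C k₁ k₀ n m L Λ f F) {z : Fin 3 → ℤ} (hz : z ∈ c.J)
    (j : Fin 3) : ‖c.B z (ev j)‖ ≤ M := by
  have := c.above z hz (ev j)
  rwa [AB.S293.ev_norm, mul_one] at this

/-- **the data of the sums** -/
theorem dat_of (hp : 1 ≤ p) (hp2 : p < 2) (hM : 0 < M) (hε : 0 ≤ ε) (hκ : κ ≤ 1)
    (hn : 3 ≤ n) (hm : n + 2 ≤ m) (hk₁ : 3 ≤ k₁) (hk₀ : 1 ≤ k₀)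
    (c : Choice2 p ε θ M κ C k₁ k₀ n m L Λ f F) {G : V → V} {δ : Idx × Fin 3 → ℝ} {δt C' : ℝ}
    (hδ : ∀ e, 0 < δ e) (hδ1 : ∀ e, δ e ≤ 1 / 2 ^ e.1.1)
    (hδt : ∑' e, ENNReal.ofReal (δ e) ≤ ENNReal.ofReal δt) (hδt0 : 0 ≤ δt) (hC' : 0 ≤ C')
    (hnet : ∀ e : Idx × Fin 3, NetE c.v n m c.n₀ e →
      (∀ z ∈ c.J, Disjoint (edge c.v e) (prel c.v (plq c.n₂ z) (1 / 2 ^ (c.n₂ + k₁)))) →
      eInt c.v e (fun x => ENNReal.ofReal (‖fderiv ℝ G x (ev e.2) - cl (F x) (ev e.2)‖ ^ p)) ≤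
        ENNReal.ofReal (δ e))
    (hgap : ∀ z ∈ c.J, ∀ e : Idx × Fin 3, e.1.1 = c.n₂ + k₁ →
      edge c.v e ⊆ pbox c.v (plq c.n₂ z) (1 / 2 ^ (c.n₂ + k₁)) 0 \
        prel c.v (plq c.n₂ z) (2 / 2 ^ (c.n₂ + k₁)) →
      ¬ edge c.v e ⊆ pbox c.v (plq c.n₂ z) (1 / 2 ^ (c.n₂ + k₁)) 0 \
        prel c.v (plq c.n₂ z) (1 / 2 ^ (c.n₂ + k₁)) →
      eInt c.v e (fun x => ENNReal.ofReal (‖fderiv ℝ G x (ev e.2)‖ ^ p)) ≤
        ENNReal.ofReal (C' / 2 ^ (c.n₂ + k₁))) :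
    Dat p (2 * δt + 2 * ε) (6 + 4 * M ^ p + C') c.v n m c.n₂ k₁ k₀ c.n₀ c.J G := by
  have hMp : 0 ≤ M ^ p := Real.rpow_nonneg hM.le p
  have hcore : core c.v n ⊆ Q1 := LOC560.core_subset c.org
  refine ⟨geoOf c hn hm hk₁ hk₀, by positivity, by positivity, ?_, ?_, ?_⟩
  · intro z hz e he hez hed
    have he1 : e.1.1 = c.n₀ := he.1
    have h1 := AB.S293.eInt_G_le' hp hp2 c.rat (he.2.2.1.trans hcore) G hM
      ((hnet e (Or.inr (Or.inr he)) hed).trans (ENNReal.ofReal_le_ofReal (hδ1 e))) (c.B z)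
      (norm_B_le c hz e.2)
      ((c.own z hz e he1 he.2.1 hez).2.trans (ENNReal.ofReal_le_ofReal (by
        rw [he1]; gcongr)))
    rw [he1] at h1
    refine h1.trans (ENNReal.ofReal_le_ofReal ?_)
    rw [div_le_div_iff_of_pos_right (by positivity)]
    linarith
  · have h1 : ∀ e : {e : Idx × Fin 3 // FineE c.v n c.n₀ e ∧
        ∀ z ∈ c.J, ¬ edge c.v e ⊆ squ c.v (plq c.n₂ z)},
        ENNReal.ofReal (1 / 2 ^ c.n₀) * eInt c.v e.1 (dE p G e.1.2) ≤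
        2 * ENNReal.ofReal (δ e.1) + 2 * (ENNReal.ofReal (1 / 2 ^ c.n₀) * fInt p c.v F e.1) := by
      rintro ⟨e, he, hez⟩
      have hed : ∀ z ∈ c.J, Disjoint (edge c.v e) (prel c.v (plq c.n₂ z) (1 / 2 ^ (c.n₂ + k₁))) :=
        fun z hz => fine_disj (d := k₁ + k₀) (by rw [he.1, c.eqn, add_assoc]) he.2.1 (hez z hz)
          (by positivity)
      have h2 := AB.S293.eInt_G_le hp hp2 c.rat (he.2.2.1.trans hcore) G
        (hnet e (Or.inr (Or.inr he)) hed)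
      calc ENNReal.ofReal (1 / 2 ^ c.n₀) * eInt c.v e (dE p G e.2)
          ≤ ENNReal.ofReal (1 / 2 ^ c.n₀) * (2 * ENNReal.ofReal (δ e) + 2 * fInt p c.v F e) :=
            mul_le_mul_right h2 _
        _ = ENNReal.ofReal (1 / 2 ^ c.n₀) * (2 * ENNReal.ofReal (δ e)) +
            2 * (ENNReal.ofReal (1 / 2 ^ c.n₀) * fInt p c.v F e) := by ring
        _ ≤ _ := by
            refine add_le_add (mul_le_of_le_one_left zero_le ?_) le_rfl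
            rw [ENNReal.ofReal_le_one, div_le_one (by positivity)]
            exact one_le_pow₀ (by norm_num)
    refine (ENNReal.tsum_le_tsum h1).trans ?_
    rw [ENNReal.tsum_add, ENNReal.tsum_mul_left, ENNReal.tsum_mul_left]
    have h3 : ∑' e : {e : Idx × Fin 3 // FineE c.v n c.n₀ e ∧
        ∀ z ∈ c.J, ¬ edge c.v e ⊆ squ c.v (plq c.n₂ z)}, ENNReal.ofReal (δ e.1) ≤
        ENNReal.ofReal δt :=
      (ENNReal.tsum_comp_le_tsum_of_injective Subtype.val_injective _).trans hδt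
    calc _ ≤ 2 * ENNReal.ofReal δt + 2 * ENNReal.ofReal ε := by
          gcongr
          exact c.bad
      _ = _ := by
          have e2 : (2:ℝ≥0∞) = ENNReal.ofReal 2 := by norm_num
          rw [e2, ← ENNReal.ofReal_mul (by norm_num), ← ENNReal.ofReal_mul (by norm_num),
            ← ENNReal.ofReal_add (by positivity) (by positivity)]
  · intro z hz e he h1 h2
    refine (hgap z hz e he h1 h2).trans (ENNReal.ofReal_le_ofReal ?_)
    rw [div_le_div_iff_of_pos_right (by positivity)]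
    linarith

end Vale.Agent.P073.LOC724
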