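import Vale.Agent.P073.LOC724.D
import Vale.Agent.P073.LOC.Sum696

/-!
# P073, block LOC, rank two: the composition
-/

namespace Vale.Agent.P073.LOC724

open MeasureTheory Set Filter Topology Metric Vale.Agent.P073.St
open Vale.Agent.P073.SQ (ev cube Cells dE faceE edgesE)
open Vale.Agent.P073.AB (cl Idx pt edge eInt squ tiles EdgeOf EdgeOfSq RatGood MinSq sqE mem_sqE)
open Vale.Agent.P073.AB.P86 (sc)
open P073.Net (IsTile dyc dyo SizeFn)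
open P073.Plate (pbox prel)
open Vale.Agent.P073.LOC
open scoped ContDiff ENNReal

variable {p ε θ M κ C : ℝ} {k₁ k₀ n m : ℕ} {L : V →L[ℝ] V} {Λ : Set V} {f : V → V} {F : V → Mat}

/-- a choice with a larger `κ` -/
def mono (c : Choice2 p ε θ M κ C k₁ k₀ n m L Λ f F) {κ' : ℝ} (h : κ ≤ κ') :
    Choice2 p ε θ M κ' C k₁ k₀ n m L Λ f F :=
  { c with
    own := fun z hz e h1 h2 h3 => by
      obtain ⟨a1, a2⟩ := c.own z hz e h1 h2 h3
      refine ⟨fun x hx => (a1 x hx).trans (by gcongr), a2.trans (ENNReal.ofReal_le_ofReal ?_)⟩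
      gcongr }

theorem pbox_sub_squ (v : V) (n₂ : ℕ) (z : Fin 3 → ℤ) {δ : ℝ} (hδ : 0 ≤ δ) :
    pbox v (plq n₂ z) δ 0 ⊆ squ v (plq n₂ z) := fun x hx =>
  ⟨sub_eq_zero.1 (abs_nonpos_iff.1 hx.1), fun k hk =>
    ⟨by linarith [(hx.2 k hk).1], by linarith [(hx.2 k hk).2]⟩⟩

/-- the plates of a middle plane -/
theorem box_le (hc : SpecGeo2c) (hp : 1 ≤ p) (hp2 : p < 2) (hε : 0 ≤ ε)
    (hn : 3 ≤ n) (hm : n + 2 ≤ m) (hk₁ : 3 ≤ k₁) (hk₀ : 1 ≤ k₀)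
    (c : Choice2 p ε θ M κ C k₁ k₀ n m L Λ f F) {G G' : V → V} {δ₀ : ℝ} (hδ₀ : 0 ≤ δ₀)
    (hG' : ∀ z ∈ c.J, ∀ y ∈ pbox c.v (plq c.n₂ z) (2 / 2 ^ (c.n₂ + k₁)) 0,
      fderiv ℝ G' y = fderiv ℝ G y)
    (hplate : ∀ z ∈ c.J, ∑ j ∈ Finset.univ.erase (2 : Fin 3),
      ∫⁻ x in {x | x ∈ core c.v n ∧ Function.update x 2 (pt c.v c.n₂ z 2) ∈
          pbox c.v (plq c.n₂ z) (2 / 2 ^ (c.n₂ + k₁)) 0},
        ENNReal.ofReal (‖fderiv ℝ G (Function.update x 2 (pt c.v c.n₂ z 2)) (ev j) -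
          c.B z (ev j)‖ ^ p) ≤ ENNReal.ofReal δ₀) {h : ℝ} (hh : IsMid c.v n h) :
    ∑ z ∈ Jh c.v c.n₂ c.J h, ∑ j ∈ Finset.univ.erase (2 : Fin 3),
      ∫⁻ x in col c.v n h (pbox c.v (plq c.n₂ z) (2 / 2 ^ (c.n₂ + k₁)) 0),
        ENNReal.ofReal (‖fderiv ℝ G' (Function.update x 2 h) (ev j) - L (ev j)‖ ^ p) ≤
      ENNReal.ofReal (2 * (4 ^ c.n₂ * δ₀) + 4 * ε ^ p) := by
  have hp0 : 0 ≤ p := by linarith
  have hεp : 0 ≤ ε ^ p := Real.rpow_nonneg hε p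
  have key : ∀ z ∈ Jh c.v c.n₂ c.J h, ∑ j ∈ Finset.univ.erase (2 : Fin 3),
      ∫⁻ x in col c.v n h (pbox c.v (plq c.n₂ z) (2 / 2 ^ (c.n₂ + k₁)) 0),
        ENNReal.ofReal (‖fderiv ℝ G' (Function.update x 2 h) (ev j) - L (ev j)‖ ^ p) ≤
      ENNReal.ofReal (2 * δ₀ + 4 * (ε ^ p * (1 / 4 ^ c.n₂))) := by
    intro z hz
    obtain ⟨hzJ, hzh⟩ := mem_Jh.1 hz
    set S := col c.v n h (pbox c.v (plq c.n₂ z) (2 / 2 ^ (c.n₂ + k₁)) 0) with hS
    have hSm : MeasurableSet S := measurableSet_col _ _ _ (isClosed_pbox _ _ _ _).measurableSet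
    have hvol : volume S ≤ ENNReal.ofReal (1 / 4 ^ c.n₂) := by
      refine (measure_mono (col_mono (pbox_sub_squ c.v c.n₂ z (by positivity)))).trans ?_
      exact vol_col hn (q := (c.n₂, z)) (c.sub z hzJ) hzh
    have h1 := hplate z hzJ
    rw [hzh] at h1
    have h2 : ∀ j ∈ Finset.univ.erase (2 : Fin 3),
        ∫⁻ x in S, ENNReal.ofReal (‖fderiv ℝ G' (Function.update x 2 h) (ev j) - L (ev j)‖ ^ p) ≤
        2 * (∫⁻ x in S, ENNReal.ofReal (‖fderiv ℝ G (Function.update x 2 h) (ev j) -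
          c.B z (ev j)‖ ^ p)) + 2 * (ENNReal.ofReal (ε ^ p) * ENNReal.ofReal (1 / 4 ^ c.n₂)) := by
      intro j hj
      have hj2 := Finset.ne_of_mem_erase hj
      calc ∫⁻ x in S, ENNReal.ofReal (‖fderiv ℝ G' (Function.update x 2 h) (ev j) - L (ev j)‖ ^ p)
          ≤ ∫⁻ x in S, (2 * ENNReal.ofReal (‖fderiv ℝ G (Function.update x 2 h) (ev j) -
            c.B z (ev j)‖ ^ p) + 2 * ENNReal.ofReal (ε ^ p)) := by
            refine setLIntegral_mono' hSm fun x hx => ?_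
            rw [hG' z hzJ _ hx.2]
            have h4 := AB.S293.ofReal_pow_le hp hp2
              (fderiv ℝ G (Function.update x 2 h) (ev j) - L (ev j)) (c.B z (ev j) - L (ev j))
            rw [sub_sub_sub_cancel_right] at h4
            refine h4.trans (add_le_add le_rfl (mul_le_mul_right (ENNReal.ofReal_le_ofReal
              (Real.rpow_le_rpow (norm_nonneg _) (c.lin z hzJ j hj2) hp0)) _))
        _ = 2 * (∫⁻ x in S, ENNReal.ofReal (‖fderiv ℝ G (Function.update x 2 h) (ev j) -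
            c.B z (ev j)‖ ^ p)) + 2 * ENNReal.ofReal (ε ^ p) * volume S := by
            rw [lintegral_add_right _ measurable_const, lintegral_const_mul' _ _ (by norm_num),
              setLIntegral_const]
        _ ≤ _ := by
            rw [mul_assoc]
            gcongr
    refine (Finset.sum_le_sum h2).trans ?_
    rw [Finset.sum_add_distrib, ← Finset.mul_sum, Finset.sum_const]
    have e2 : (Finset.univ.erase (2 : Fin 3)).card = 2 := rfl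
    rw [e2, nsmul_eq_mul, Nat.cast_ofNat]
    calc _ ≤ 2 * ENNReal.ofReal δ₀ +
          2 * (2 * (ENNReal.ofReal (ε ^ p) * ENNReal.ofReal (1 / 4 ^ c.n₂))) := by
          gcongr
          exact h1
      _ = _ := by
          have e3 : (2:ℝ≥0∞) = ENNReal.ofReal 2 := by norm_num
          rw [e3, ← ENNReal.ofReal_mul hεp, ← ENNReal.ofReal_mul (by norm_num),
            ← ENNReal.ofReal_mul (by norm_num), ← ENNReal.ofReal_mul (by norm_num),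
            ← ENNReal.ofReal_add (by positivity) (by positivity)]
          congr 1
          ring
  refine (card_sum_le _ _ (card_Jh hc (geoOf c hn hm hk₁ hk₀) hh) key).trans
    (ENNReal.ofReal_le_ofReal (le_of_eq ?_))
  push_cast
  field_simp

theorem exists_weights {t : ℝ} (ht : 0 < t) (ι : Type) [Countable ι] :
    ∃ τ : ι → ℝ, (∀ i, 0 < τ i) ∧ (∑' i, ENNReal.ofReal (τ i)) ≤ ENNReal.ofReal t := by
  obtain ⟨τ, h1, h2⟩ := ENNReal.exists_pos_sum_of_countable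
    (ENNReal.ofReal_pos.2 ht).ne' ι
  refine ⟨fun i => τ i, fun i => by exact_mod_cast h1 i, le_trans (le_of_eq ?_) h2.le⟩
  congr 1
  funext i
  exact ENNReal.ofReal_coe_nnreal

/-- **(S4)** -/
theorem specSumSec2_of (ha : SpecGeo2a) (hb : SpecGeo2b) (hc : SpecGeo2c) : SpecSumSec2 := by
  intro hC hG p L hp hp2 hL
  obtain ⟨C₀, hC₀, θ, hθ, M, hM, hC⟩ := hC p L hp hp2 hL
  obtain ⟨C₁, hC₁, hG⟩ := hG p θ M hp hp2 hθ hM
  obtain ⟨Cp, hCp, hsq⟩ := exists_squeeze hp hp2 ha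
  have hp0 : 0 ≤ p := by linarith
  have hMp : 0 ≤ M ^ p := Real.rpow_nonneg hM.le p
  set B : ℝ := 6 + 4 * M ^ p + C₁ with hB
  have hB0 : 0 < B := by positivity
  set c₂ : ℝ := Cp.toReal with hc₂
  have hc₂0 : 0 ≤ c₂ := ENNReal.toReal_nonneg
  have hCp' : Cp = ENNReal.ofReal c₂ := (ENNReal.ofReal_toReal hCp).symm
  set Lp : ℝ := ‖L‖ ^ p with hLp
  have hLp0 : 0 ≤ Lp := Real.rpow_nonneg (norm_nonneg _) p
  have hLe : ∀ j, ‖L (ev j)‖ ≤ ‖L‖ := fun j => by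
    have := L.le_opNorm (ev j)
    rwa [AB.S293.ev_norm, mul_one] at this
  refine ⟨4 * C₀, by positivity, fun n m hn hm ε hε => ?_⟩
  -- the number of layers
  set K₁ : ℝ := 80 * c₂ * B + 32 * Lp with hK₁
  have hK₁0 : 0 ≤ K₁ := by positivity
  obtain ⟨k', hk'⟩ := exists_pow_lt_of_lt_one (show (0:ℝ) < ε / 4 / (K₁ + 1) by positivity)
    (show (1/2:ℝ) < 1 by norm_num)
  set k₁ : ℕ := k' + 3 with hk₁def
  have hk₁ : 3 ≤ k₁ := by omega
  have hk₁' : K₁ / 2 ^ k₁ ≤ ε / 4 := by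
    have h1 : (1:ℝ) / 2 ^ k₁ ≤ (1 / 2) ^ k' := by
      rw [div_pow, one_pow]
      gcongr
      · norm_num
      · omega
    have h2 : (1:ℝ) / 2 ^ k₁ ≤ ε / 4 / (K₁ + 1) := h1.trans hk'.le
    have h3 : (0:ℝ) < 1 / 2 ^ k₁ := by positivity
    rw [le_div_iff₀ (by positivity)] at h2
    calc K₁ / 2 ^ k₁ = 1 / 2 ^ k₁ * K₁ := by ring
      _ ≤ 1 / 2 ^ k₁ * (K₁ + 1) := by gcongr; linarith
      _ ≤ ε / 4 := h2
  obtain ⟨k₀, hk₀, κ', hκ', hG⟩ := hG k₁ hk₁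
  -- the small numbers
  set W₁ : ℝ := 16 * c₂ + 16 * Lp + 32 with hW₁
  have hW₁0 : 0 < W₁ := by positivity
  set ε₁ : ℝ := min 1 (ε / (8 * W₁)) with hε₁
  have hε₁0 : 0 < ε₁ := lt_min one_pos (by positivity)
  have hε₁1 : ε₁ ≤ 1 := min_le_left _ _
  have hε₁2 : W₁ * ε₁ ≤ ε / 8 := by
    have : ε₁ ≤ ε / (8 * W₁) := min_le_right _ _
    calc W₁ * ε₁ ≤ W₁ * (ε / (8 * W₁)) := by gcongr
      _ = ε / 8 := by field_simp
  obtain ⟨κ, hκ, hC⟩ := hC n m hn hm ε₁ hε₁0 k₁ k₀ (by omega) (min κ' 1) (lt_min hκ' one_pos)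
  refine ⟨κ, hκ, fun Λ f F hf => ?_⟩
  obtain ⟨c⟩ := hC Λ f F hf
  set c' : Choice2 p ε₁ θ M κ' C₀ k₁ k₀ n m L Λ f F := mono c (min_le_left _ _) with hc'
  set δt : ℝ := min ε₁ (min (C₀ / 2 ^ m) (C₀ / 2 ^ n)) with hδt
  have hδt0 : 0 < δt := lt_min hε₁0 (lt_min (by positivity) (by positivity))
  obtain ⟨τ, hτ, hτs⟩ := exists_weights hδt0 (Idx × Fin 3)
  set δ : Idx × Fin 3 → ℝ := fun e => min (τ e) (1 / 2 ^ e.1.1) with hδ
  have hδ0 : ∀ e, 0 < δ e := fun e => lt_min (hτ e) (by positivity)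
  have hδ1 : ∀ e, δ e ≤ 1 / 2 ^ e.1.1 := fun e => min_le_right _ _
  have hδs : ∑' e, ENNReal.ofReal (δ e) ≤ ENNReal.ofReal δt :=
    (ENNReal.tsum_le_tsum fun e => ENNReal.ofReal_le_ofReal (min_le_left _ _)).trans hτs
  have hδt' : ∀ e, δ e ≤ δt := fun e => by
    have h1 : ENNReal.ofReal (δ e) ≤ ENNReal.ofReal δt := (ENNReal.le_tsum e).trans hδs
    exact (ENNReal.ofReal_le_ofReal_iff hδt0.le).1 h1
  set δ₀ : ℝ := ε₁ / 4 ^ c.n₂ with hδ₀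
  have hδ₀0 : 0 < δ₀ := by positivity
  obtain ⟨G, g1, g2, g3, g4⟩ := hG n m ε₁ C₀ L Λ f F hn hm hf.dom hf.homeo hf.cont hf.sob c' δ hδ0
    δ₀ hδ₀0
  have hGO : GOut c G δ δ₀ C₁ := ⟨g1, g2, g3, fun z hz => (g4 z hz).1, fun z hz => (g4 z hz).2⟩
  obtain ⟨η', hη', hη's⟩ := exists_weights hε₁0 Idx
  set η : Idx → ℝ≥0∞ := fun q => ENNReal.ofReal (η' q / 2 ^ q.1) with hη
  have hη0 : ∀ q, η q ≠ 0 := fun q => by
    have := hη' q
    exact (ENNReal.ofReal_pos.2 (by positivity)).ne'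
  have hηs : ∑' q : Idx, ENNReal.ofReal (2 ^ q.1) * η q ≤ ENNReal.ofReal ε₁ := by
    refine le_trans (le_of_eq ?_) hη's
    congr 1
    funext q
    rw [hη, ← ENNReal.ofReal_mul (by positivity)]
    congr 1
    field_simp
  obtain ⟨s₀, s1, s2, s3, s4, s5⟩ := hsq c G η hn hm hk₁ hk₀ g1 g2 hη0
  have D := dat_of hp hp2 hM hε₁0.le (min_le_right _ _) hn hm hk₁ hk₀ c hδ0 hδ1 hδs hδt0.le hC₁.le
    g3 (fun z hz => (g4 z hz).2)
  have hdtε : δt ≤ ε₁ := min_le_left _ _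
  refine ⟨c.v, G ∘ s₀, c.org, s1, s2, ?_, ?_, ?_, ?_⟩
  · intro e h1 h2 h3 h4
    rw [s3 e (Or.inl ⟨h1, h2⟩)]
    refine hGO.hor hp hp2 hC₀.le h1 h2 h3 h4 ((hδt' e).trans ?_)
    exact (min_le_right _ _).trans (min_le_left _ _)
  · intro e h1 h2 h3
    rw [s3 e (Or.inl ⟨h1, h2⟩)]
    refine (hGO.ver hp hp2 hε₁0.le h1 h2 h3 ((hδt' e).trans hdtε)).trans
      (ENNReal.ofReal_le_ofReal ?_)
    have : 4 * ε₁ ≤ W₁ * ε₁ := by
      gcongr
      rw [hW₁]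
      linarith
    linarith
  · have h1 := hGO.out ha hn hm hk₁ hk₀ hp hp2 hC₀.le
      (((ENNReal.tsum_comp_le_tsum_of_injective Subtype.val_injective _).trans hδs).trans
        (ENNReal.ofReal_le_ofReal ((min_le_right _ _).trans (min_le_right _ _))))
    refine le_trans (le_of_eq ?_) h1
    congr 1
    funext e
    obtain ⟨a1, a2⟩ := edge_of_tile e.2.1
    rw [s3 e.1 (Or.inr ⟨a1, e.2.2⟩)]
  · intro z hz1 hz2
    have hh : IsMid c.v n (mid c.v n z) := ⟨z, hz1, hz2, rfl⟩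
    have hbox := box_le hc hp hp2 hε₁0.le hn hm hk₁ hk₀ c hδ₀0.le s4 hGO.plate hh
    have hsec := sec_le ha hb hc hp hp2 D (G ∘ s₀) s5 hηs L hLe hh hbox
      ((c.area z hz1 hz2).trans (ENNReal.ofReal_le_ofReal (by linarith)))
    refine hsec.trans ?_
    have e3 : (2:ℝ≥0∞) = ENNReal.ofReal 2 := by norm_num
    rw [hCp', e3, ← hB]
    have hq1 : 0 ≤ 2 * δt + 2 * ε₁ := by positivity
    have hq2 : 0 ≤ ε₁ ^ p := Real.rpow_nonneg hε₁0.le p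
    rw [← ENNReal.ofReal_mul hc₂0, ← ENNReal.ofReal_add (by positivity) hε₁0.le,
      ← ENNReal.ofReal_mul (by norm_num), ← ENNReal.ofReal_mul hLp0,
      ← ENNReal.ofReal_mul (by norm_num), ← ENNReal.ofReal_mul (by norm_num),
      ← ENNReal.ofReal_add (by positivity) (by positivity),
      ← ENNReal.ofReal_add (by positivity) (by positivity)]
    refine ENNReal.ofReal_le_ofReal ?_
    have hεp : ε₁ ^ p ≤ ε₁ := by
      calc ε₁ ^ p ≤ ε₁ ^ (1:ℝ) :=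
            Real.rpow_le_rpow_of_exponent_ge hε₁0 hε₁1 hp
        _ = ε₁ := Real.rpow_one _
    have h5 : (4:ℝ) ^ c.n₂ * δ₀ = ε₁ := by rw [hδ₀]; field_simp
    rw [h5]
    have h6 : 2 * (c₂ * (2 * (2 * δt + 2 * ε₁) + 40 * B / 2 ^ k₁) + ε₁) +
        2 * (2 * (Lp * (2 * δt + 2 * ε₁ + 8 / 2 ^ k₁))) =
        (4 * c₂ + 4 * Lp) * (2 * δt + 2 * ε₁) + 2 * ε₁ + K₁ / 2 ^ k₁ := by
      rw [hK₁]; ring
    have h7 : (4 * c₂ + 4 * Lp) * (2 * δt + 2 * ε₁) ≤ (4 * c₂ + 4 * Lp) * (4 * ε₁) := by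
      gcongr
      linarith
    have h8 : W₁ * ε₁ = (4 * c₂ + 4 * Lp) * (4 * ε₁) + 32 * ε₁ := by rw [hW₁]; ring
    rw [h6]
    linarith

end Vale.Agent.P073.LOC724
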