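import Vale.Agent.P073.LOC724.E
import Vale.Agent.P073.LOC.Geo2a
import Vale.Agent.P073.LOC.Geo2b
import Vale.Agent.P073.LOC.Geo2c

/-!
# P073, block LOC, rank two: `SpecSumSec2` is a theorem
-/

namespace Vale.Agent.P073.LOC724

open Vale.Agent.P073.LOC

/-- **(S4)**, unconditional -/
theorem specSumSec2 : SpecSumSec2 := specSumSec2_of specGeo2a specGeo2b specGeo2c

end Vale.Agent.P073.LOC724
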